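import Vale.Agent.P011NA.Reiter
import Mathlib.Analysis.InnerProductSpace.l2Space

/-! The regular representation on a quotient group, almost invariant vectors from Reiter's
condition, and the assembly of the normal subgroup theorem from the two halves. -/

namespace P011NA

open Topology Filter

/-- square summable functions -/
abbrev El (Q : Type*) := lp (fun _ : Q => ℝ) 2

theorem two_pos' : (0 : ℝ) < (2 : ENNReal).toReal := by norm_num

theorem El_normsq {Q : Type*} (f : El Q) : ‖f‖ ^ 2 = ∑' q, f q ^ 2 := by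
  have := lp.norm_rpow_eq_tsum two_pos' f
  simpa using this

theorem El_summable {Q : Type*} (f : El Q) : Summable fun q => f q ^ 2 := by
  have := (lp.memℓp f).summable two_pos'
  simpa using this

theorem El_mem {Q : Type*} {f : Q → ℝ} (h : Summable fun q => f q ^ 2) : Memℓp f 2 := by
  apply memℓp_gen
  simpa using h

/-- reindexing -/
noncomputable def reidx {Q : Type*} (e : Q ≃ Q) : El Q ≃ₗᵢ[ℝ] El Q where
  toFun f := ⟨fun q => f (e q), El_mem (e.summable_iff.2 (El_summable f))⟩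
  invFun f := ⟨fun q => f (e.symm q), El_mem (e.symm.summable_iff.2 (El_summable f))⟩
  map_add' _ _ := rfl
  map_smul' _ _ := rfl
  left_inv f := by
    apply lp.ext
    funext q
    simp
  right_inv f := by
    apply lp.ext
    funext q
    simp
  norm_map' f := by
    rw [← sq_eq_sq₀ (norm_nonneg _) (norm_nonneg _), El_normsq, El_normsq]
    exact e.tsum_eq fun q => f q ^ 2

theorem reidx_apply {Q : Type*} (e : Q ≃ Q) (f : El Q) (q : Q) : reidx e f q = f (e q) := rfl

/-- the left regular representation of the quotient -/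
noncomputable def reg {L : Type*} [Group L] (N : Subgroup L) [N.Normal] :
    L →* (El (L ⧸ N) ≃ₗᵢ[ℝ] El (L ⧸ N)) where
  toFun l := reidx (Equiv.mulLeft ((l : L ⧸ N)⁻¹))
  map_one' := by
    ext f q
    simp [reidx_apply]
  map_mul' a b := by
    ext f q
    simp [reidx_apply]

theorem reg_apply {L : Type*} [Group L] (N : Subgroup L) [N.Normal] (l : L) (f : El (L ⧸ N))
    (q : L ⧸ N) : reg N l f q = f ((l : L ⧸ N)⁻¹ * q) := rfl

theorem reg_N {L : Type*} [Group L] (N : Subgroup L) [N.Normal] {n : L} (hn : n ∈ N) :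
    reg N n = 1 := by
  ext f q
  rw [reg_apply, (QuotientGroup.eq_one_iff n).2 hn]
  simp

theorem fin_of_inv {L : Type*} [Group L] (D N : Subgroup L) [N.Normal] {f : El (L ⧸ N)}
    (hf : f ≠ 0) (hi : ∀ d ∈ D, reg N d f = f) : N.relIndex D ≠ 0 := by
  obtain ⟨q, hq⟩ : ∃ q, f q ≠ 0 := by
    by_contra h
    push Not at h
    exact hf (lp.ext (funext h))
  have h1 := (El_summable f).tendsto_cofinite_zero.eventually
    (gt_mem_nhds (show (0 : ℝ) < f q ^ 2 by positivity))
  rw [Filter.eventually_cofinite] at h1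
  have h2 : ((D.map (QuotientGroup.mk' N) : Subgroup (L ⧸ N)) : Set (L ⧸ N)).Finite := by
    refine (h1.preimage (f := fun x => x * q) (mul_left_injective q).injOn).subset ?_
    rintro _ ⟨d, hd, rfl⟩
    have := congrArg (fun g : El (L ⧸ N) => g q) (hi d⁻¹ (D.inv_mem hd))
    simp only [reg_apply, QuotientGroup.mk_inv, inv_inv] at this
    simp [this]
  have h3 := Subgroup.relIndex_ker D (QuotientGroup.mk' N)
  rw [QuotientGroup.ker_mk'] at h3
  rw [h3]
  have : Finite (D.map (QuotientGroup.mk' N)) := h2.to_subtype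
  exact Nat.card_pos.ne'

theorem sqrt_sub_sq (x y : ℝ) (hx : 0 ≤ x) (hy : 0 ≤ y) :
    (Real.sqrt x - Real.sqrt y) ^ 2 ≤ |x - y| := by
  have h1 := Real.sq_sqrt hx
  have h2 := Real.sq_sqrt hy
  have h3 := Real.sqrt_nonneg x
  have h4 := Real.sqrt_nonneg y
  rcases le_total (Real.sqrt x) (Real.sqrt y) with h | h
  · refine le_trans ?_ (neg_le_abs _)
    nlinarith
  · refine le_trans ?_ (le_abs_self _)
    nlinarith

theorem almost_inv {L : Type*} [Group L] (N : Subgroup L) [N.Normal] (F : Finset L) {e : ℝ}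
    (he : 0 < e) (v : (L ⧸ N) →₀ ℝ) (h0 : ∀ q, 0 ≤ v q)
    (h1 : 1 ≤ Finsupp.linearCombination ℝ (fun _ => (1 : ℝ)) v)
    (h : ∀ d ∈ F, ∀ f : L ⧸ N → ℝ, (∀ q, |f q| ≤ 1) →
        |Finsupp.linearCombination ℝ (fun q => f ((d : L ⧸ N) * q)) v -
          Finsupp.linearCombination ℝ f v| ≤ e ^ 2) :
    ∃ w : El (L ⧸ N), ‖w‖ = 1 ∧ ∀ d ∈ F, ‖reg N d w - w‖ ≤ e := by
  classical
  have hlc : ∀ f : L ⧸ N → ℝ, Finsupp.linearCombination ℝ f v = ∑' q, v q * f q := by
    intro f
    rw [Finsupp.linearCombination_apply, Finsupp.sum, tsum_eq_sum (s := v.support)]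
    · rfl
    · intro q hq
      simp [Finsupp.notMem_support_iff.1 hq]
  have hs : ∀ (x : L ⧸ N) (f : L ⧸ N → ℝ), Summable fun q => v (x * q) * f q := by
    intro x f
    refine summable_of_hasFiniteSupport ((v.support.finite_toSet.preimage (f := fun q => x * q)
      (mul_right_injective x).injOn).subset fun q hq => ?_)
    simp only [Set.mem_preimage, Finset.mem_coe, Finsupp.mem_support_iff]
    intro h
    exact hq (by simp [h])
  let u : El (L ⧸ N) := ⟨fun q => Real.sqrt (v q), El_mem (by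
    simpa [Real.sq_sqrt (h0 _)] using hs 1 (fun _ => 1))⟩
  have hu : ∀ q, u q = Real.sqrt (v q) := fun _ => rfl
  have hu1 : 1 ≤ ‖u‖ := by
    have : 1 ≤ ‖u‖ ^ 2 := by
      rw [El_normsq]
      simpa [hu, Real.sq_sqrt (h0 _), hlc] using h1
    nlinarith [norm_nonneg u]
  have hud : ∀ d ∈ F, ‖reg N d u - u‖ ≤ e := by
    intro d hd
    rw [← sq_le_sq₀ (norm_nonneg _) he.le, El_normsq]
    set x : L ⧸ N := (d : L ⧸ N)⁻¹ with hx
    let f : L ⧸ N → ℝ := fun q => if v q ≤ v (x * q) then 1 else -1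
    have hf : ∀ q, |f q| ≤ 1 := by
      intro q
      simp only [f]
      split_ifs <;> simp
    have e1 := h d hd f hf
    rw [hlc, hlc] at e1
    have e2 : ∑' q, v q * f ((d : L ⧸ N) * q) = ∑' q, v (x * q) * f q := by
      rw [← (Equiv.mulLeft x).tsum_eq]
      simp [hx]
    have hs1 : Summable fun q => v q * f q := by simpa using hs 1 f
    rw [e2, ← Summable.tsum_sub (hs x f) hs1] at e1
    refine le_trans ?_ ((le_abs_self _).trans e1)
    refine Summable.tsum_le_tsum (fun q => ?_) (El_summable _) ((hs x f).sub hs1)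
    have e3 : (reg N d u - u : El (L ⧸ N)) q = Real.sqrt (v (x * q)) - Real.sqrt (v q) := rfl
    rw [e3]
    refine (sqrt_sub_sq _ _ (h0 _) (h0 _)).trans (le_of_eq ?_)
    simp only [f]
    split_ifs with hc
    · rw [abs_of_nonneg (by linarith)]
      ring
    · rw [abs_of_nonpos (by linarith)]
      ring
  have hpos : 0 < ‖u‖ := by linarith
  refine ⟨‖u‖⁻¹ • u, by rw [norm_smul, norm_inv, norm_norm, inv_mul_cancel₀ hpos.ne'],
    fun d hd => ?_⟩
  rw [map_smul, ← smul_sub, norm_smul, norm_inv, norm_norm]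
  have := hud d hd
  calc ‖u‖⁻¹ * ‖reg N d u - u‖ ≤ 1 * e :=
        mul_le_mul (inv_le_one_of_one_le₀ hu1) this (norm_nonneg _) zero_le_one
    _ = e := one_mul e

/-- the normal subgroup theorem from the property (T) half, applied to the regular
representation -/
theorem nst_of {L G : Type*} [Group L] [Group G] [TopologicalSpace G] [IsTopologicalGroup G]
    [LocallyCompactSpace G] [T2Space G] (p : L →* G) (D N : Subgroup L) [N.Normal]
    (hcomm : ∀ n ∈ N, (D.comap (MulAut.conj n).toMonoidHom).relIndex D ≠ 0)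
    (hprop : ∀ K : Set G, IsCompact K → {d : L | d ∈ D ∧ p d ∈ K}.Finite)
    (hcoc : ∃ C : Set G, IsCompact C ∧ ∀ g : G, ∃ d ∈ D, (p d)⁻¹ * g ∈ C)
    (hdense : ∀ g : G, g ∈ closure (p '' N))
    (hT : (∀ F : Finset L, (∀ d ∈ F, d ∈ D) → ∀ e : ℝ, 0 < e →
        ∃ w : El (L ⧸ N), ‖w‖ = 1 ∧ ∀ d ∈ F, ‖reg N d w - w‖ ≤ e) →
      ∃ w : El (L ⧸ N), w ≠ 0 ∧ ∀ d ∈ D, reg N d w = w) :
    N.relIndex D ≠ 0 := by
  obtain ⟨w, hw, hi⟩ := hT fun F hF e he => by
    obtain ⟨v, h0, h1, -, h⟩ := reiter p D N hcomm hprop hcoc hdense F hF (e := e ^ 2)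
      (by positivity)
    exact almost_inv N F he v h0 h1 h
  exact fin_of_inv D N hw hi

end P011NA
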