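import Mathlib.Analysis.SpecialFunctions.Pow.Real
import Mathlib.Algebra.Module.LinearMap.End
import Mathlib.Algebra.Order.BigOperators.Ring.Finset
import Mathlib.Algebra.BigOperators.Field
import Mathlib.Tactic.Linarith
import Mathlib.Tactic.FieldSimp
import Mathlib.Tactic.Positivity

/-! Left random walk operators on a group and an approximate Liouville estimate. -/

namespace P011NA

open Finset

variable {G : Type*} [Group G] {I : Type*} [Fintype I]

/-- the averaging operator of the left random walk with steps `a i` -/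
noncomputable def Pop (V : Type*) [AddCommGroup V] [Module ℝ V] (a : I → G) :
    Module.End ℝ (G → V) where
  toFun f := fun g => (Fintype.card I : ℝ)⁻¹ • ∑ i, f (a i * g)
  map_add' f f' := by
    funext g
    simp [Finset.sum_add_distrib, smul_add]
  map_smul' c f := by
    funext g
    simp only [Pi.smul_apply, RingHom.id_apply]
    rw [← Finset.smul_sum, smul_comm]

theorem Pop_apply (V : Type*) [AddCommGroup V] [Module ℝ V] (a : I → G) (f : G → V) (g : G) :
    Pop V a f g = (Fintype.card I : ℝ)⁻¹ • ∑ i, f (a i * g) := rfl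

/-- Cesaro average of the powers -/
noncomputable def Ces {W : Type*} [AddCommGroup W] [Module ℝ W] (P : Module.End ℝ W) (n : ℕ) :
    Module.End ℝ W := (n : ℝ)⁻¹ • ∑ k ∈ range n, P ^ k

theorem Pop_comp {V V' : Type*} [AddCommGroup V] [Module ℝ V] [AddCommGroup V'] [Module ℝ V']
    (l : V →ₗ[ℝ] V') (a : I → G) (f : G → V) :
    (fun g => l (Pop V a f g)) = Pop V' a (fun g => l (f g)) := by
  funext g
  simp [Pop_apply, map_sum]

theorem Pop_pow_comp {V V' : Type*} [AddCommGroup V] [Module ℝ V] [AddCommGroup V'] [Module ℝ V']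
    (l : V →ₗ[ℝ] V') (a : I → G) (k : ℕ) (f : G → V) :
    (fun g => l ((Pop V a ^ k) f g)) = (Pop V' a ^ k) (fun g => l (f g)) := by
  induction k with
  | zero => simp
  | succ k ih =>
    rw [pow_succ', pow_succ', Module.End.mul_apply, Module.End.mul_apply, Pop_comp, ih]

theorem Ces_comp {V V' : Type*} [AddCommGroup V] [Module ℝ V] [AddCommGroup V'] [Module ℝ V']
    (l : V →ₗ[ℝ] V') (a : I → G) (n : ℕ) (f : G → V) (g : G) :
    l (Ces (Pop V a) n f g) = Ces (Pop V' a) n (fun g => l (f g)) g := by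
  simp only [Ces, LinearMap.smul_apply, LinearMap.sum_apply, Pi.smul_apply, Finset.sum_apply,
    map_smul, map_sum]
  congr 1
  refine Finset.sum_congr rfl fun k _ => ?_
  exact congrFun (Pop_pow_comp l a k f) g

/-- positive unital operators commuting with right translations -/
structure Mk (E : Module.End ℝ (G → ℝ)) : Prop where
  mono : ∀ f f' : G → ℝ, (∀ g, f g ≤ f' g) → ∀ g, E f g ≤ E f' g
  one : E (fun _ => 1) = fun _ => 1
  right : ∀ (f : G → ℝ) (u : G), E (fun g => f (g * u)) = fun g => E f (g * u)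

theorem Mk.const {E : Module.End ℝ (G → ℝ)} (hE : Mk E) (c : ℝ) :
    E (fun _ => c) = fun _ => c := by
  have : (fun _ : G => c) = c • (fun _ : G => (1 : ℝ)) := by
    funext g
    simp
  rw [this, map_smul, hE.one]

theorem Mk.abs_le {E : Module.End ℝ (G → ℝ)} (hE : Mk E) {f : G → ℝ} {c : ℝ}
    (h : ∀ g, |f g| ≤ c) (g : G) : |E f g| ≤ c := by
  rw [_root_.abs_le]
  constructor
  · have := hE.mono (fun _ => -c) f (fun g => (_root_.abs_le.1 (h g)).1) g
    rwa [hE.const] at this
  · have := hE.mono f (fun _ => c) (fun g => (_root_.abs_le.1 (h g)).2) g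
    rwa [hE.const] at this

theorem Mk.modulus {E : Module.End ℝ (G → ℝ)} (hE : Mk E) {f : G → ℝ} {c : ℝ} {u : G}
    (h : ∀ g, |f (g * u) - f g| ≤ c) (g : G) : |E f (g * u) - E f g| ≤ c := by
  have h1 := hE.abs_le (f := (fun g => f (g * u)) - f) (c := c) (fun g => h g) g
  rw [map_sub, hE.right] at h1
  exact h1

theorem Mk_one : Mk (1 : Module.End ℝ (G → ℝ)) :=
  ⟨fun _ _ h => h, rfl, fun _ _ => rfl⟩

theorem Mk.mul {E E' : Module.End ℝ (G → ℝ)} (hE : Mk E) (hE' : Mk E') : Mk (E * E') := by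
  refine ⟨fun f f' h => hE.mono _ _ (hE'.mono _ _ h), ?_, fun f u => ?_⟩
  · rw [Module.End.mul_apply, hE'.one, hE.one]
  · rw [Module.End.mul_apply, hE'.right, hE.right]
    rfl

theorem Mk.pow {E : Module.End ℝ (G → ℝ)} (hE : Mk E) (k : ℕ) : Mk (E ^ k) := by
  induction k with
  | zero => simpa using Mk_one
  | succ k ih =>
    rw [pow_succ]
    exact ih.mul hE

omit [Group G] in
theorem Ces_apply (E : Module.End ℝ (G → ℝ)) (n : ℕ) (f : G → ℝ) (g : G) :
    Ces E n f g = (n : ℝ)⁻¹ * ∑ k ∈ range n, (E ^ k) f g := by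
  simp [Ces, LinearMap.sum_apply, Finset.sum_apply]

theorem Mk.ces {E : Module.End ℝ (G → ℝ)} (hE : Mk E) {n : ℕ} (hn : 0 < n) : Mk (Ces E n) := by
  have hn' : (0 : ℝ) < n := by exact_mod_cast hn
  refine ⟨fun f f' h g => ?_, ?_, fun f u => ?_⟩
  · rw [Ces_apply, Ces_apply]
    exact mul_le_mul_of_nonneg_left
      (Finset.sum_le_sum fun k _ => (hE.pow k).mono _ _ h g) (by positivity)
  · funext g
    rw [Ces_apply]
    simp only [(hE.pow _).one, Finset.sum_const, card_range, nsmul_eq_mul, mul_one]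
    field_simp
  · funext g
    rw [Ces_apply, Ces_apply]
    simp only [(hE.pow _).right]

theorem Mk_Pop [Nonempty I] (a : I → G) : Mk (Pop ℝ a) := by
  have hc : (0 : ℝ) < Fintype.card I := by exact_mod_cast Fintype.card_pos
  refine ⟨fun f f' h g => ?_, ?_, fun f u => ?_⟩
  · simp only [Pop_apply, smul_eq_mul]
    exact mul_le_mul_of_nonneg_left (Finset.sum_le_sum fun i _ => h _) (by positivity)
  · funext g
    simp only [Pop_apply, smul_eq_mul, Finset.sum_const, card_univ, nsmul_eq_mul, mul_one]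
    field_simp
  · funext g
    simp only [Pop_apply, mul_assoc]

theorem ces_almost {E : Module.End ℝ (G → ℝ)} (hE : Mk E) {n : ℕ} (hn : 0 < n) {f : G → ℝ}
    {M : ℝ} (h : ∀ g, |f g| ≤ M) (g : G) :
    |E (Ces E n f) g - Ces E n f g| ≤ 2 * M / n := by
  have hn' : (0 : ℝ) < n := by exact_mod_cast hn
  have h1 : E (Ces E n f) g = (n : ℝ)⁻¹ * ∑ k ∈ range n, (E ^ (k + 1)) f g := by
    simp only [Ces, LinearMap.smul_apply, LinearMap.sum_apply, map_smul, map_sum, Pi.smul_apply,
      Finset.sum_apply, smul_eq_mul, pow_succ', Module.End.mul_apply]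
  rw [h1, Ces_apply, ← mul_sub, ← Finset.sum_sub_distrib,
    Finset.sum_range_sub (fun k => (E ^ k) f g), abs_mul, abs_of_pos (inv_pos.2 hn')]
  have h2 := (hE.pow n).abs_le h g
  have h3 := (hE.pow 0).abs_le h g
  have h4 : |(E ^ n) f g - (E ^ 0) f g| ≤ 2 * M := by
    refine (abs_sub _ _).trans ?_
    linarith
  calc (n : ℝ)⁻¹ * |(E ^ n) f g - (E ^ 0) f g| ≤ (n : ℝ)⁻¹ * (2 * M) :=
        mul_le_mul_of_nonneg_left h4 (by positivity)
    _ = 2 * M / n := by field_simp

theorem pow_almost {E : Module.End ℝ (G → ℝ)} (hE : Mk E) {u : G → ℝ} {e : ℝ}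
    (h : ∀ g, |E u g - u g| ≤ e) (k : ℕ) (g : G) : |(E ^ k) u g - u g| ≤ k * e := by
  induction k with
  | zero => simp
  | succ k ih =>
    have h1 := (hE.pow k).abs_le (f := E u - u) (c := e) (fun g => h g) g
    rw [map_sub] at h1
    have h2 : (E ^ (k + 1)) u g - u g =
        ((E ^ k) (E u) - (E ^ k) u : G → ℝ) g + ((E ^ k) u g - u g) := by
      rw [pow_succ, Module.End.mul_apply]
      simp
    rw [h2]
    refine (abs_add_le _ _).trans ?_
    push_cast
    linarith

/-- approximate Liouville estimate -/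
theorem liouville [Nonempty I] (a : I → G) (h : G → ℝ) {M e w t : ℝ} (ht : 0 < t)
    (hM : ∀ g, |h g| ≤ M) (he : ∀ g, |Pop ℝ a h g - h g| ≤ e) (y : G)
    (hy : ∀ g, ∃ j, |h (g * y) - h (a j * g)| ≤ w) {K : ℕ} (hK : 0 < K) :
    |h y - h 1| ≤ w + t + (Fintype.card I : ℝ) / (4 * t) * (M ^ 2 / K + 2 * M * e)
      + 2 * K * e := by
  have hc : (0 : ℝ) < Fintype.card I := by exact_mod_cast Fintype.card_pos
  have hK' : (0 : ℝ) < K := by exact_mod_cast hK
  have hM0 : 0 ≤ M := (abs_nonneg _).trans (hM 1)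
  have he0 : 0 ≤ e := (abs_nonneg _).trans (he 1)
  set P := Pop ℝ a with hP
  have hPM : Mk P := Mk_Pop a
  set D : G → ℝ := fun g => (Fintype.card I : ℝ)⁻¹ * ∑ i, (h (a i * g) - h g) ^ 2 with hD
  set s : G → ℝ := fun g => h g ^ 2 with hs
  have hD1 : ∀ g, D g ≤ (P s - s + fun _ => 2 * M * e : G → ℝ) g := by
    intro g
    have e1 : D g = P s g - s g - 2 * h g * (P h g - h g) := by
      simp only [hD, hP, hs, Pop_apply, smul_eq_mul]
      have : ∑ i, (h (a i * g) - h g) ^ 2 = ∑ i, h (a i * g) ^ 2 - 2 * h g * ∑ i, h (a i * g)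
          + Fintype.card I * h g ^ 2 := by
        rw [Finset.mul_sum, ← Finset.sum_sub_distrib, ← card_univ, ← nsmul_eq_mul,
          ← Finset.sum_const, ← Finset.sum_add_distrib]
        exact Finset.sum_congr rfl fun i _ => by ring
      rw [this]
      field_simp
      ring
    have e2 : |h g * (P h g - h g)| ≤ M * e := by
      rw [abs_mul]
      exact mul_le_mul (hM g) (he g) (abs_nonneg _) hM0
    have e3 := (_root_.abs_le.1 e2).1
    simp only [Pi.add_apply, Pi.sub_apply]
    linarith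
  have hsum : ∑ k ∈ range K, (P ^ k) D 1 ≤ ∑ _k ∈ range K, (M ^ 2 / K + 2 * M * e) := by
    have e1 : ∀ k, (P ^ k) D 1 ≤ (P ^ (k + 1)) s 1 - (P ^ k) s 1 + 2 * M * e := by
      intro k
      have := (hPM.pow k).mono _ _ hD1 1
      rw [map_add, map_sub, (hPM.pow k).const] at this
      rw [pow_succ, Module.End.mul_apply]
      simpa using this
    refine (Finset.sum_le_sum fun k _ => e1 k).trans ?_
    rw [Finset.sum_add_distrib, Finset.sum_range_sub (fun k => (P ^ k) s 1)]
    have e2 : (P ^ K) s 1 ≤ M ^ 2 := by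
      have := (hPM.pow K).mono s (fun _ => M ^ 2)
        (fun g => by simpa [hs] using sq_le_sq' (_root_.abs_le.1 (hM g)).1 (_root_.abs_le.1 (hM g)).2) 1
      rwa [(hPM.pow K).const] at this
    have e3 : 0 ≤ (P ^ 0) s 1 := by
      simp only [pow_zero, Module.End.one_apply, hs]
      positivity
    simp only [Finset.sum_const, card_range, nsmul_eq_mul]
    have : (K : ℝ) * (M ^ 2 / K + 2 * M * e) = M ^ 2 + K * (2 * M * e) := by field_simp
    rw [this]
    linarith
  obtain ⟨k, hk, hkD⟩ := Finset.exists_le_of_sum_le (nonempty_range_iff.2 hK.ne') hsum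
  have hkK : (k : ℝ) ≤ K := by exact_mod_cast (mem_range.1 hk).le
  set u : G → ℝ := (fun g => h (g * y)) - h with hu
  have hu1 : ∀ g, |P u g - u g| ≤ 2 * e := by
    intro g
    rw [hu, map_sub, hPM.right]
    have e1 := he (g * y)
    have e2 := he g
    have : ((fun g => P h (g * y)) - P h : G → ℝ) g - ((fun g => h (g * y)) - h : G → ℝ) g =
        (P h (g * y) - h (g * y)) - (P h g - h g) := by
      simp only [Pi.sub_apply]
      ring
    rw [this]
    refine (abs_sub _ _).trans ?_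
    linarith
  have hu2 := pow_almost hPM hu1 k 1
  have hu3 : ∀ g, |u g| ≤ ((fun _ => w + t) + ((Fintype.card I : ℝ) / (4 * t)) • D : G → ℝ) g := by
    intro g
    obtain ⟨j, hj⟩ := hy g
    have e1 : (h (a j * g) - h g) ^ 2 ≤ ∑ i, (h (a i * g) - h g) ^ 2 :=
      Finset.single_le_sum (f := fun i => (h (a i * g) - h g) ^ 2) (fun i _ => sq_nonneg _)
        (mem_univ j)
    have e2 : (Fintype.card I : ℝ) / (4 * t) * D g = (∑ i, (h (a i * g) - h g) ^ 2) / (4 * t) := by
      simp only [hD]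
      field_simp
    have e3 : |h (a j * g) - h g| ≤ t + (h (a j * g) - h g) ^ 2 / (4 * t) := by
      rw [← sq_abs (h (a j * g) - h g)]
      set x := |h (a j * g) - h g|
      have : t + x ^ 2 / (4 * t) - x = (x - 2 * t) ^ 2 / (4 * t) := by
        field_simp
        ring
      have h2 : 0 ≤ (x - 2 * t) ^ 2 / (4 * t) := by positivity
      linarith
    have e4 : (h (a j * g) - h g) ^ 2 / (4 * t) ≤ (∑ i, (h (a i * g) - h g) ^ 2) / (4 * t) :=
      div_le_div_of_nonneg_right e1 (by positivity)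
    have e5 : u g = (h (g * y) - h (a j * g)) + (h (a j * g) - h g) := by
      simp only [hu, Pi.sub_apply]
      ring
    simp only [Pi.add_apply, Pi.smul_apply, smul_eq_mul]
    rw [e5, e2]
    refine (abs_add_le _ _).trans ?_
    linarith
  have hu4 : |(P ^ k) u 1| ≤ w + t + (Fintype.card I : ℝ) / (4 * t) * (P ^ k) D 1 := by
    have e1 := (hPM.pow k).mono u _ (fun g => (le_abs_self _).trans (hu3 g)) 1
    have e2 := (hPM.pow k).mono (-u) _ (fun g => (neg_le_abs _).trans (hu3 g)) 1
    rw [map_add, map_smul, (hPM.pow k).const] at e1 e2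
    rw [map_neg] at e2
    simp only [Pi.add_apply, Pi.smul_apply, smul_eq_mul, Pi.neg_apply] at e1 e2
    rw [_root_.abs_le]
    constructor <;> linarith
  have hu5 : (Fintype.card I : ℝ) / (4 * t) * (P ^ k) D 1 ≤
      (Fintype.card I : ℝ) / (4 * t) * (M ^ 2 / K + 2 * M * e) :=
    mul_le_mul_of_nonneg_left hkD (by positivity)
  have hu6 : h y - h 1 = (P ^ k) u 1 - ((P ^ k) u 1 - u 1) := by
    simp [hu]
  have hu7 : (k : ℝ) * (2 * e) ≤ 2 * K * e := by nlinarith
  rw [hu6]
  refine (abs_sub _ _).trans ?_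
  linarith

end P011NA
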