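import Mathlib.GroupTheory.GroupAction.Quotient
import Mathlib.GroupTheory.Index
import Mathlib.Data.Set.Finite.Lattice
import Mathlib.Tactic.Group
import Vale.Agent.P011NA.Mark

/-! Hecke families: finite families in `N` whose cosets modulo `D` are permuted by `D`. -/

namespace P011NA

open Finset

variable {L : Type*} [Group L]

theorem orbit_finite (D : Subgroup L) (n : L)
    (h : (D.comap (MulAut.conj n⁻¹).toMonoidHom).relIndex D ≠ 0) :
    (MulAction.orbit D ((n : L ⧸ D))).Finite := by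
  have e : MulAction.stabilizer D ((n : L ⧸ D)) =
      (D.comap (MulAut.conj n⁻¹).toMonoidHom).subgroupOf D := by
    ext d
    rw [MulAction.mem_stabilizer_iff, Subgroup.mem_subgroupOf, Subgroup.mem_comap]
    change (((d : L) * n : L) : L ⧸ D) = n ↔ _
    rw [eq_comm, QuotientGroup.eq]
    simp [mul_assoc]
  have h2 : (MulAction.stabilizer D ((n : L ⧸ D))).index ≠ 0 := by
    rw [e]
    exact h
  rw [MulAction.index_stabilizer] at h2
  exact Set.finite_of_ncard_ne_zero h2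

theorem exists_hecke (D N : Subgroup L) [hN : N.Normal]
    (hcomm : ∀ n ∈ N, (D.comap (MulAut.conj n).toMonoidHom).relIndex D ≠ 0)
    (T : Finset L) (hT : ∀ n ∈ T, n ∈ N) :
    ∃ (m : ℕ) (n : Fin (m + 1) → L), (∀ i, n i ∈ N) ∧
      (∀ d ∈ D, ∃ s : Equiv.Perm (Fin (m + 1)), ∀ i, ∃ d' ∈ D, d * n i = n (s i) * d') ∧
      (∀ t ∈ T, ∀ d ∈ D, ∃ j, ∃ d' ∈ D, d * t = n j * d') := by
  classical
  set Z : Set (L ⧸ D) := ⋃ t ∈ insert (1 : L) T, MulAction.orbit D ((t : L ⧸ D)) with hZ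
  have hT' : ∀ t ∈ insert (1 : L) T, t ∈ N := by
    intro t ht
    rcases mem_insert.1 ht with rfl | ht
    · exact N.one_mem
    · exact hT t ht
  have hfin : Z.Finite :=
    Set.Finite.biUnion (insert (1 : L) T).finite_toSet fun t ht =>
      orbit_finite D t (hcomm _ (N.inv_mem (hT' t ht)))
  have hinv : ∀ (d : D) (z : L ⧸ D), z ∈ Z → d • z ∈ Z := by
    intro d z hz
    simp only [hZ, Set.mem_iUnion] at hz ⊢
    obtain ⟨t, ht, hz⟩ := hz
    refine ⟨t, ht, ?_⟩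
    obtain ⟨d', rfl⟩ := hz
    exact ⟨d * d', by simp [mul_smul]⟩
  have hrep : ∀ z : Z, ∃ n ∈ N, (n : L ⧸ D) = z := by
    rintro ⟨z, hz⟩
    simp only [hZ, Set.mem_iUnion] at hz
    obtain ⟨t, ht, d, rfl⟩ := hz
    refine ⟨d * t * (d : L)⁻¹, hN.conj_mem t (hT' t ht) d, ?_⟩
    change _ = (((d : L) * t : L) : L ⧸ D)
    rw [QuotientGroup.eq]
    simp [mul_assoc]
  choose r hrN hr using hrep
  have : Finite Z := hfin.to_subtype
  have hne : Nonempty Z := ⟨⟨((1 : L) : L ⧸ D), by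
    simp only [hZ, Set.mem_iUnion]
    exact ⟨1, mem_insert_self _ _, MulAction.mem_orbit_self _⟩⟩⟩
  obtain ⟨m, hm⟩ : ∃ m, Nat.card Z = m + 1 := Nat.exists_eq_succ_of_ne_zero Nat.card_pos.ne'
  let e : Z ≃ Fin (m + 1) := (Finite.equivFin Z).trans (finCongr hm)
  have key : ∀ (d : D) (z : Z) (x : L), (x : L ⧸ D) = z →
      ∃ d' ∈ D, (d : L) * x = r ⟨d • (z : L ⧸ D), hinv d z z.2⟩ * d' := by
    intro d z x hx
    refine ⟨(r ⟨d • (z : L ⧸ D), hinv d z z.2⟩)⁻¹ * (d * x), ?_, by simp⟩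
    rw [← QuotientGroup.eq, hr]
    change d • (z : L ⧸ D) = _
    rw [← hx]
    rfl
  refine ⟨m, fun i => r (e.symm i), fun i => hrN _, fun d hd => ?_, fun t ht d hd => ?_⟩
  · let s : Equiv.Perm Z := (MulAction.toPerm (⟨d, hd⟩ : D)).subtypePerm (p := fun z => z ∈ Z)
      (fun z => ⟨fun hz => by
        have := hinv (⟨d, hd⟩ : D)⁻¹ _ hz
        simpa using this, fun hz => hinv _ _ hz⟩)
    refine ⟨e.symm.trans (s.trans e), fun i => ?_⟩
    obtain ⟨d', hd', h⟩ := key ⟨d, hd⟩ (e.symm i) (r (e.symm i)) (hr _)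
    refine ⟨d', hd', ?_⟩
    simp only [Equiv.trans_apply, Equiv.symm_apply_apply]
    exact h
  · have htZ : (t : L ⧸ D) ∈ Z := by
      simp only [hZ, Set.mem_iUnion]
      exact ⟨t, mem_insert_of_mem ht, MulAction.mem_orbit_self _⟩
    obtain ⟨d', hd', h⟩ := key ⟨d, hd⟩ ⟨_, htZ⟩ t rfl
    refine ⟨e ⟨_, hinv ⟨d, hd⟩ _ htZ⟩, d', hd', ?_⟩
    simp only [Equiv.symm_apply_apply]
    exact h

variable {G : Type*} [Group G]

/-- left invariance under the image of `D ⊓ N` -/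
def Inv (p : L →* G) (D N : Subgroup L) (h : G → ℝ) : Prop :=
  ∀ d ∈ D, d ∈ N → ∀ g, h (p d * g) = h g

/-- equivariance under left translation by `D` on invariant functions -/
def Eqv (p : L →* G) (D N : Subgroup L) (E : Module.End ℝ (G → ℝ)) : Prop :=
  ∀ h, Inv p D N h → ∀ d ∈ D, E (fun g => h (p d * g)) = fun g => E h (p d * g)

theorem Eqv.inv {p : L →* G} {D N : Subgroup L} {E : Module.End ℝ (G → ℝ)} (hE : Eqv p D N E)
    {h : G → ℝ} (hh : Inv p D N h) : Inv p D N (E h) := by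
  intro d hd hn g
  have := congrFun (hE h hh d hd) g
  simp only [hh d hd hn] at this
  exact this.symm

theorem Eqv.pow {p : L →* G} {D N : Subgroup L} {E : Module.End ℝ (G → ℝ)} (hE : Eqv p D N E)
    (k : ℕ) : Eqv p D N (E ^ k) := by
  induction k with
  | zero => exact fun h _ d _ => rfl
  | succ k ih =>
    intro h hh d hd
    rw [pow_succ', Module.End.mul_apply, Module.End.mul_apply, ih h hh d hd,
      hE _ (ih.inv hh) d hd]

theorem Eqv.ces {p : L →* G} {D N : Subgroup L} {E : Module.End ℝ (G → ℝ)} (hE : Eqv p D N E)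
    (n : ℕ) : Eqv p D N (Ces E n) := by
  intro h hh d hd
  funext g
  rw [Ces_apply, Ces_apply]
  simp only [hE.pow _ h hh d hd]

theorem Eqv_Pop {p : L →* G} {D N : Subgroup L} [hN : N.Normal] {I : Type*} [Fintype I]
    {n : I → L} (hn : ∀ i, n i ∈ N)
    (hs : ∀ d ∈ D, ∃ s : Equiv.Perm I, ∀ i, ∃ d' ∈ D, d * n i = n (s i) * d') :
    Eqv p D N (Pop ℝ fun i => (p (n i))⁻¹) := by
  intro h hh d hd
  funext g
  simp only [Pop_apply]
  congr 1
  obtain ⟨s, hs⟩ := hs d hd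
  rw [← Equiv.sum_comp s (fun i => h ((p (n i))⁻¹ * (p d * g)))]
  refine Finset.sum_congr rfl fun i _ => ?_
  obtain ⟨d', hd', e⟩ := hs i
  have e1 : (n (s i))⁻¹ * d = (d' * d⁻¹) * (d * (n i)⁻¹) := by
    have : d' = (n (s i))⁻¹ * (d * n i) := by rw [e]; simp
    rw [this]
    group
  have e2 : d' * d⁻¹ ∈ N := by
    have : d' * d⁻¹ = (n (s i))⁻¹ * (d * n i * d⁻¹) := by
      have : d' = (n (s i))⁻¹ * (d * n i) := by rw [e]; simp
      rw [this]
      group
    rw [this]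
    exact N.mul_mem (N.inv_mem (hn _)) (hN.conj_mem _ (hn i) d)
  have e3 : (p (n (s i)))⁻¹ * (p d * g) = p (d' * d⁻¹) * (p d * ((p (n i))⁻¹ * g)) := by
    rw [← mul_assoc, ← map_inv, ← map_mul, e1]
    simp [mul_assoc]
  rw [e3, hh _ (D.mul_mem hd' (D.inv_mem hd)) e2]

end P011NA
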