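import Vale.Agent.P011NA.Ell2
import Vale.Agent.P011NB.PropT

/-! The normal subgroup theorem for commensurators of cocompact lattices. -/

namespace P011NA

/-- **Normal subgroup theorem.** A normal subgroup `N` with dense image which commensurates the
cocompact lattice `D` meets it in a subgroup of finite index. -/
theorem nst {L G : Type*} [Group L] [Group G] [TopologicalSpace G] [IsTopologicalGroup G]
    [LocallyCompactSpace G] [T2Space G] (p : L →* G) (D N : Subgroup L) [N.Normal]
    (hcomm : ∀ n ∈ N, (D.comap (MulAut.conj n).toMonoidHom).relIndex D ≠ 0)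
    (hprop : ∀ K : Set G, IsCompact K → {d : L | d ∈ D ∧ p d ∈ K}.Finite)
    (hcoc : ∃ C : Set G, IsCompact C ∧ ∀ g : G, ∃ d ∈ D, (p d)⁻¹ * g ∈ C)
    (hdense : ∀ g : G, g ∈ closure (p '' N))
    (hcg : ∃ W : Set G, IsCompact W ∧ Subgroup.closure W = ⊤)
    (hhom : ∀ χ : G → ℝ, Continuous χ → (∀ x y, χ (x * y) = χ x + χ y) →
      (∀ d ∈ D, d ∈ N → χ (p d) = 0) → ∀ x, χ x = 0) :
    N.relIndex D ≠ 0 :=
  nst_of p D N hcomm hprop hcoc hdense fun hai =>
    Vale.Agent.P011NB.propT p D N hcomm hprop hcoc hdense hcg hhom (reg N)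
      (fun _ hn => reg_N N hn) hai

end P011NA
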