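import Vale.Agent.P011NA.NST

/-! The normal subgroup theorem for an open subgroup of the closure of the image. -/

namespace P011NA

open Topology Filter Pointwise

theorem relIndex_comap_sub {L : Type*} [Group L] (P H D : Subgroup L) (h : H.relIndex D ≠ 0) :
    (H.subgroupOf P).relIndex (D.subgroupOf P) ≠ 0 := by
  have e : D.subgroupOf P = (D ⊓ P).subgroupOf P := by simp
  rw [e, Subgroup.relIndex_subgroupOf inf_le_right]
  exact fun h0 => h (Subgroup.relIndex_eq_zero_of_le_right inf_le_left h0)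

/-- **Normal subgroup theorem**, for a subgroup `M` which is open in the closure of the image of
`L` and lies in the closure of the image of `N`. -/
theorem nst_open {L G : Type*} [Group L] [Group G] [TopologicalSpace G] [IsTopologicalGroup G]
    [LocallyCompactSpace G] [T2Space G] (p : L →* G) (D N : Subgroup L) [hN : N.Normal]
    (M : Subgroup G)
    (hcomm : ∀ n ∈ N, (D.comap (MulAut.conj n).toMonoidHom).relIndex D ≠ 0)
    (hprop : ∀ K : Set G, IsCompact K → {d : L | d ∈ D ∧ p d ∈ K}.Finite)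
    (hcoc : ∃ C : Set G, IsCompact C ∧ ∀ l : L, ∃ d ∈ D, (p d)⁻¹ * p l ∈ C)
    (hopen : ∃ O ∈ 𝓝 (1 : G), ∀ g ∈ O, g ∈ closure (Set.range p) → g ∈ M)
    (hMN : ∀ g ∈ M, g ∈ closure (p '' N))
    (hcg : ∃ W : Set G, IsCompact W ∧ Subgroup.closure W = M)
    (hhom : ∀ χ : G → ℝ, ContinuousOn χ M → (∀ x ∈ M, ∀ y ∈ M, χ (x * y) = χ x + χ y) →
      (∀ d ∈ D, d ∈ N → p d ∈ M → χ (p d) = 0) → ∀ x ∈ M, χ x = 0) :
    N.relIndex (D ⊓ M.comap p) ≠ 0 := by
  classical
  obtain ⟨O, hO, hOM⟩ := hopen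
  set Lc : Subgroup G := p.range.topologicalClosure with hLc
  have hLc' : ∀ g, g ∈ Lc ↔ g ∈ closure (Set.range p) := fun g => by
    rw [hLc, ← SetLike.mem_coe, Subgroup.topologicalClosure_coe, MonoidHom.coe_range]
  have hMle : M ≤ Lc := fun g hg =>
    (hLc' g).2 (closure_mono (Set.image_subset_range _ _) (hMN g hg))
  have hpl : ∀ l, p l ∈ Lc := fun l => (hLc' _).2 (subset_closure ⟨l, rfl⟩)
  have hnear : ∀ g : G, ∀ᶠ x in 𝓝 g, g⁻¹ * x ∈ O := fun g =>
    (show Continuous fun x : G => g⁻¹ * x by fun_prop).continuousAt.preimage_mem_nhds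
      (by simpa using hO)
  have hMc : IsClosed (M : Set G) := by
    refine isClosed_of_closure_subset fun g hg => ?_
    have hgL : g ∈ Lc := by
      have : closure (M : Set G) ⊆ Lc :=
        closure_minimal hMle (Subgroup.isClosed_topologicalClosure _)
      exact this hg
    have h1 : ∀ᶠ x in 𝓝 g, x⁻¹ * g ∈ O :=
      (show Continuous fun x : G => x⁻¹ * g by fun_prop).continuousAt.preimage_mem_nhds
        (by simpa using hO)
    obtain ⟨x, hx1, hx2⟩ := mem_closure_iff_nhds.1 hg _ h1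
    have h2 := hOM _ hx1 ((hLc' _).1 (Lc.mul_mem (Lc.inv_mem (hMle hx2)) hgL))
    simpa using M.mul_mem hx2 h2
  have : LocallyCompactSpace M := hMc.isClosedEmbedding_subtypeVal.locallyCompactSpace
  let P : Subgroup L := M.comap p
  let q : P →* M := (p.comp P.subtype).codRestrict M fun x => x.2
  have hq : ∀ x : P, (q x : G) = p x := fun _ => rfl
  have key := nst q (D.subgroupOf P) (N.subgroupOf P) ?_ ?_ ?_ ?_ ?_ ?_
  · have e : D.subgroupOf P = (D ⊓ P).subgroupOf P := by simp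
    rwa [e, Subgroup.relIndex_subgroupOf inf_le_right] at key
  · intro n hn
    have h1 := relIndex_comap_sub P _ D (hcomm n hn)
    convert h1 using 2
    ext x
    simp [Subgroup.mem_subgroupOf]
  · intro K hK
    refine ((hprop _ (hK.image continuous_subtype_val)).preimage (f := fun x : P => (x : L))
      Subtype.val_injective.injOn).subset ?_
    rintro d ⟨hd, hdK⟩
    exact ⟨hd, q d, hdK, rfl⟩
  · obtain ⟨C, hC, hc⟩ := hcoc
    obtain ⟨V, hV, hV1⟩ := exists_compact_mem_nhds (1 : G)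
    have hC' : IsCompact ((C * V) ∩ Lc) :=
      (hC.mul hV).inter_right (Subgroup.isClosed_topologicalClosure _)
    obtain ⟨T, hT, hTc⟩ := hC'.elim_nhds_subcover (fun c => {x | c⁻¹ * x ∈ O})
      fun c _ => hnear c
    have hch : ∀ c : G, ∃ d ∈ D, (∃ d' ∈ D, c⁻¹ * (p d')⁻¹ ∈ M) → c⁻¹ * (p d)⁻¹ ∈ M := by
      intro c
      by_cases h : ∃ d' ∈ D, c⁻¹ * (p d')⁻¹ ∈ M
      · obtain ⟨d', h1, h2⟩ := h
        exact ⟨d', h1, fun _ => h2⟩
      · exact ⟨1, D.one_mem, fun h' => absurd h' h⟩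
    choose e he he' using hch
    have hK : IsCompact (⋃ c ∈ T, {p (e c)} * (C * V)) :=
      T.isCompact_biUnion fun c _ => isCompact_singleton.mul (hC.mul hV)
    refine ⟨_, hMc.isClosedEmbedding_subtypeVal.isCompact_preimage hK, fun g => ?_⟩
    have h1 : ∀ᶠ x : G in 𝓝 (g : G), x⁻¹ * (g : G) ∈ V :=
      (show Continuous fun x : G => x⁻¹ * (g : G) by fun_prop).continuousAt.preimage_mem_nhds
        (by simpa using hV1)
    obtain ⟨_, hx1, l, rfl⟩ := mem_closure_iff_nhds.1 ((hLc' _).1 (hMle g.2)) _ h1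
    obtain ⟨d, hd, hdl⟩ := hc l
    have h2 : (p d)⁻¹ * g ∈ C * V := ⟨_, hdl, _, hx1, by simp [mul_assoc]⟩
    have h3 : (p d)⁻¹ * g ∈ Lc := Lc.mul_mem (Lc.inv_mem (hpl d)) (hMle g.2)
    have h4 := hTc ⟨h2, h3⟩
    simp only [Set.mem_iUnion] at h4
    obtain ⟨c, hcT, h5⟩ := h4
    have h6 : c⁻¹ * ((p d)⁻¹ * g) ∈ M :=
      hOM _ h5 ((hLc' _).1 (Lc.mul_mem (Lc.inv_mem (hT c hcT).2) h3))
    have h7 : c⁻¹ * (p d)⁻¹ ∈ M := by
      simpa [mul_assoc] using M.mul_mem h6 (M.inv_mem g.2)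
    have h8 := he' c ⟨d, hd, h7⟩
    have h9 : d * (e c)⁻¹ ∈ P := by
      have := M.mul_mem (M.inv_mem h7) h8
      simpa [P, mul_assoc] using this
    refine ⟨⟨_, h9⟩, D.mul_mem hd (D.inv_mem (he c)), ?_⟩
    simp only [Set.mem_preimage, Set.mem_iUnion]
    refine ⟨c, hcT, _, rfl, _, h2, ?_⟩
    simp [hq, mul_assoc]
  · intro g
    rw [hMc.isClosedEmbedding_subtypeVal.isInducing.closure_eq_preimage_closure_image,
      Set.mem_preimage, mem_closure_iff_nhds]
    intro U hU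
    obtain ⟨_, ⟨hx1, hx2⟩, n, hn, rfl⟩ :=
      mem_closure_iff_nhds.1 (hMN g g.2) _ (inter_mem hU (hnear g))
    have h1 := hOM _ hx2 ((hLc' _).1 (Lc.mul_mem (Lc.inv_mem (hMle g.2)) (hpl n)))
    have h2 : n ∈ P := by simpa [P] using M.mul_mem g.2 h1
    exact ⟨_, hx1, q ⟨n, h2⟩, ⟨⟨n, h2⟩, hn, rfl⟩, rfl⟩
  · obtain ⟨W, hW, hWM⟩ := hcg
    refine ⟨_, hMc.isClosedEmbedding_subtypeVal.isCompact_preimage hW, ?_⟩
    subst hWM
    exact Subgroup.closure_closure_coe_preimage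
  · intro χ hc hadd h0 x
    have := hhom (fun g => if h : g ∈ M then χ ⟨g, h⟩ else 0) ?_ ?_ ?_ x x.2
    · simpa using this
    · rw [continuousOn_iff_continuous_domRestrict]
      refine hc.congr fun y => ?_
      have hy : (y : G) ∈ M := y.2
      change χ y = if h : (y : G) ∈ M then χ ⟨y, h⟩ else 0
      rw [dif_pos hy]
    · intro a ha b hb
      simp only [ha, hb, M.mul_mem ha hb, dif_pos]
      exact hadd ⟨a, ha⟩ ⟨b, hb⟩
    · intro d hd hn hM
      simp only [hM, dif_pos]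
      exact h0 ⟨d, hM⟩ hd hn

end P011NA
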