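import Vale.Agent.P011NA.Sums
import Mathlib.Topology.Separation.Regular

/-! Amenability half of the normal subgroup theorem for commensurators of cocompact lattices:
Reiter's condition for the action of `D` on `L ⧸ N`. -/

namespace P011NA

open Topology Filter Pointwise

variable {L G : Type*} [Group L] [Group G] [TopologicalSpace G] [IsTopologicalGroup G]

theorem reiter [LocallyCompactSpace G] [T2Space G] (p : L →* G) (D N : Subgroup L) [hN : N.Normal]
    (hcomm : ∀ n ∈ N, (D.comap (MulAut.conj n).toMonoidHom).relIndex D ≠ 0)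
    (hprop : ∀ K : Set G, IsCompact K → {d : L | d ∈ D ∧ p d ∈ K}.Finite)
    (hcoc : ∃ C : Set G, IsCompact C ∧ ∀ g : G, ∃ d ∈ D, (p d)⁻¹ * g ∈ C)
    (hdense : ∀ g : G, g ∈ closure (p '' N))
    (F : Finset L) (hF : ∀ d ∈ F, d ∈ D) {e : ℝ} (he : 0 < e) :
    ∃ v : (L ⧸ N) →₀ ℝ, (∀ q, 0 ≤ v q) ∧ 1 ≤ Finsupp.linearCombination ℝ (fun _ => (1 : ℝ)) v ∧
      (∀ q, v q ≠ 0 → ∃ d ∈ D, (d : L ⧸ N) = q) ∧
      ∀ d ∈ F, ∀ f : L ⧸ N → ℝ, (∀ q, |f q| ≤ 1) →
        |Finsupp.linearCombination ℝ (fun q => f ((d : L ⧸ N) * q)) v -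
          Finsupp.linearCombination ℝ f v| ≤ e := by
  classical
  have hcoc' := hcoc
  obtain ⟨C, hC, hc⟩ := hcoc'
  obtain ⟨b, hb1, -, hbs, hb⟩ := exists_continuous_one_zero_of_isCompact hC isClosed_empty
    (Set.disjoint_empty C)
  have hK : IsCompact (tsupport b) := hbs
  have hbK : ∀ x ∉ tsupport b, b x = 0 := fun x hx => image_eq_zero_of_notMem_tsupport hx
  obtain ⟨M, hM0, hMb⟩ := Sm_bound (N := N) hprop hcoc hK
  have hM : ∀ f : L ⧸ N → ℝ, (∀ q, |f q| ≤ 1) → ∀ g, |Sm p D N b f g| ≤ M := by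
    intro f hf g
    have := hMb b f 1 hbK (fun x => by rw [abs_of_nonneg (hb x).1]; exact (hb x).2) hf g
    simpa using this
  have hU := Sm_modulus (N := N) hprop hcoc hK b.continuous hbK (e := e / 4) (by positivity)
  obtain ⟨T, hTN, hT⟩ := finite_cover hdense hC (F.finite_toSet.image p).isCompact hU
  obtain ⟨m, n, hn, hs, hj⟩ := exists_hecke D N hcomm T hTN
  set a : Fin (m + 1) → G := fun i => (p (n i))⁻¹ with ha
  have hPM : Mk (Pop ℝ a) := Mk_Pop a
  have hPE : Eqv p D N (Pop ℝ a) := Eqv_Pop hn hs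
  set c : ℝ := (Fintype.card (Fin (m + 1)) : ℝ) / (4 * (e / 4)) with hcdef
  have hc0 : 0 ≤ c := by positivity
  obtain ⟨K, hK0, hKe⟩ : ∃ K : ℕ, 0 < K ∧ c * (M ^ 2 / K) ≤ e / 4 := by
    obtain ⟨K, hK⟩ := exists_nat_gt (c * M ^ 2 / (e / 4))
    have h0 : (0 : ℝ) < K := lt_of_le_of_lt (by positivity) hK
    refine ⟨K, by exact_mod_cast h0, ?_⟩
    rw [div_lt_iff₀ (by positivity)] at hK
    rw [mul_div_assoc', div_le_iff₀ h0]
    linarith
  obtain ⟨r, hr0, hre⟩ : ∃ r : ℕ, 0 < r ∧ (c * (2 * M) + 2 * K) * (2 * M / r) ≤ e / 4 := by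
    obtain ⟨r, hr⟩ := exists_nat_gt ((c * (2 * M) + 2 * K) * (2 * M) / (e / 4))
    have h0 : (0 : ℝ) < r := lt_of_le_of_lt (by positivity) hr
    refine ⟨r, by exact_mod_cast h0, ?_⟩
    rw [div_lt_iff₀ (by positivity)] at hr
    rw [mul_div_assoc', div_le_iff₀ h0]
    linarith
  have hAM : Mk (Ces (Pop ℝ a) r) := hPM.ces hr0
  have hAE : Eqv p D N (Ces (Pop ℝ a) r) := hPE.ces r
  set v : (L ⧸ N) →₀ ℝ := Ces (Pop ((L ⧸ N) →₀ ℝ) a) r (Fs p D N b) 1 with hv
  have hlc : ∀ f : L ⧸ N → ℝ, Finsupp.linearCombination ℝ f v =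
      Ces (Pop ℝ a) r (Sm p D N b f) 1 := by
    intro f
    rw [hv, Ces_comp]
    simp only [lc_Fs hprop hK hbK f]
  have hvq : ∀ q, v q = Finsupp.linearCombination ℝ (Pi.single q (1 : ℝ) : L ⧸ N → ℝ) v := by
    intro q
    rw [Finsupp.linearCombination_apply, Finsupp.sum, Finset.sum_eq_single q]
    · simp
    · intro q' _ h
      simp [Pi.single_eq_of_ne h]
    · intro h
      simp [Finsupp.notMem_support_iff.1 h]
  refine ⟨v, fun q => ?_, ?_, fun q hq => ?_, fun d hd f hf => ?_⟩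
  · rw [hvq, hlc]
    have := hAM.mono (fun _ => 0) (Sm p D N b (Pi.single q 1)) (fun g => finsum_nonneg fun d =>
      mul_nonneg (hb _).1 (by
        by_cases h : ((d : L) : L ⧸ N) = q
        · simp [h]
        · simp [Pi.single_eq_of_ne h])) 1
    rwa [hAM.const] at this
  · rw [hlc]
    have := hAM.mono (fun _ => 1) (Sm p D N b (fun _ => 1)) (fun g => by
      obtain ⟨d, hd, hg⟩ := hc g
      have h1 := single_le_finsum (⟨d, hd⟩ : D) (f := fun d : D => b ((p d)⁻¹ * g) * 1)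
        ((fin_supp hprop hK hbK g).subset fun d hd h => hd (by simp [h]))
        (fun j => by simpa using (hb _).1)
      have h2 : b ((p d)⁻¹ * g) = 1 := hb1 hg
      simp only [h2, mul_one] at h1
      simpa [Sm] using h1) 1
    rwa [hAM.const] at this
  · by_contra hne
    push Not at hne
    apply hq
    rw [hvq, hlc]
    have : Sm p D N b (Pi.single q 1) = fun _ => 0 := by
      funext g
      unfold Sm
      refine finsum_eq_zero_of_forall_eq_zero fun d => ?_
      simp [Pi.single_eq_of_ne (hne d d.2)]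
    rw [this, hAM.const]
  · rw [hlc, hlc]
    have e1 : Sm p D N b (fun q => f ((d : L ⧸ N) * q)) = fun g => Sm p D N b f (p d * g) := by
      funext g
      rw [Sm_shift p D N b f (hF d hd)]
    rw [e1, hAE _ (Sm_inv p D N b f) d (hF d hd)]
    simp only [mul_one]
    set h := Ces (Pop ℝ a) r (Sm p D N b f) with hh
    have hI : Inv p D N h := hAE.inv (Sm_inv p D N b f)
    have key := liouville a h (M := M) (e := 2 * M / r) (w := e / 4) (t := e / 4) (by positivity)
      (hAM.abs_le (hM f hf)) (ces_almost hPM hr0 (hM f hf)) (p d) (fun g => by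
        obtain ⟨x, hx, hg⟩ := hc g
        obtain ⟨t, ht, hu⟩ := hT _ hg (p d) ⟨d, hd, rfl⟩
        obtain ⟨j, x', hx', ej⟩ := hj t ht x hx
        refine ⟨j, ?_⟩
        have e2 : x * x'⁻¹ ∈ N := by
          have : x * x'⁻¹ = (x * t⁻¹ * x⁻¹) * n j := by
            have : x' = (n j)⁻¹ * (x * t) := by rw [ej]; simp
            rw [this]
            group
          rw [this]
          exact N.mul_mem (hN.conj_mem _ (N.inv_mem (hTN t ht)) x) (hn j)
        have e3 : p (x * x'⁻¹) * (a j * g) = g * p d *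
            (((p x)⁻¹ * g * p d)⁻¹ * (p t)⁻¹ * ((p x)⁻¹ * g)) := by
          have : p x' = (p (n j))⁻¹ * (p x * p t) := by
            rw [← map_mul, ej]
            simp
          simp only [ha, map_mul, map_inv, this]
          group
        rw [← hI _ (D.mul_mem hx (D.inv_mem hx')) e2 (a j * g), e3, abs_sub_comm]
        exact hAM.modulus (hu f hf) _) hK0
    refine key.trans ?_
    rw [← hcdef]
    nlinarith

end P011NA
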