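import Mathlib.Topology.Algebra.Group.Pointwise
import Mathlib.Topology.UrysohnsLemma
import Mathlib.Algebra.BigOperators.Finprod
import Mathlib.LinearAlgebra.Finsupp.LinearCombination
import Vale.Agent.P011NA.Hecke

/-! Sums over a cocompact lattice. -/

namespace P011NA

open Topology Filter Pointwise

variable {L G : Type*} [Group L] [Group G]

/-- the sum over the lattice -/
noncomputable def Sm (p : L →* G) (D N : Subgroup L) (b : G → ℝ) (f : L ⧸ N → ℝ) (g : G) : ℝ :=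
  ∑ᶠ d : D, b ((p d)⁻¹ * g) * f ((d : L) : L ⧸ N)

theorem Sm_shift (p : L →* G) (D N : Subgroup L) [N.Normal] (b : G → ℝ) (f : L ⧸ N → ℝ)
    {d : L} (hd : d ∈ D) (g : G) :
    Sm p D N b f (p d * g) = Sm p D N b (fun q => f ((d : L ⧸ N) * q)) g := by
  unfold Sm
  rw [← finsum_comp_equiv (Equiv.mulLeft (⟨d, hd⟩ : D))]
  refine finsum_congr fun e => ?_
  simp [mul_assoc]

theorem Sm_inv (p : L →* G) (D N : Subgroup L) [N.Normal] (b : G → ℝ) (f : L ⧸ N → ℝ) :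
    Inv p D N (Sm p D N b f) := by
  intro d hd hn g
  rw [Sm_shift p D N b f hd, (QuotientGroup.eq_one_iff d).2 hn]
  simp

variable [TopologicalSpace G] [IsTopologicalGroup G]

theorem fin_lat {p : L →* G} {D : Subgroup L}
    (hprop : ∀ K : Set G, IsCompact K → {d : L | d ∈ D ∧ p d ∈ K}.Finite)
    {C K : Set G} (hC : IsCompact C) (hK : IsCompact K) :
    {d : D | ∃ g ∈ C, (p d)⁻¹ * g ∈ K}.Finite := by
  have h := hprop _ (hC.mul hK.inv)
  refine Set.Finite.subset (h.preimage (f := fun d : D => (d : L))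
    Subtype.val_injective.injOn) ?_
  rintro d ⟨g, hg, hd⟩
  refine ⟨d.2, g, hg, ((p d)⁻¹ * g)⁻¹, Set.inv_mem_inv.2 hd, by simp⟩

theorem fin_supp {p : L →* G} {D : Subgroup L}
    (hprop : ∀ K : Set G, IsCompact K → {d : L | d ∈ D ∧ p d ∈ K}.Finite)
    {K : Set G} (hK : IsCompact K) {b : G → ℝ} (hb : ∀ x ∉ K, b x = 0) (g : G) :
    {d : D | b ((p d)⁻¹ * g) ≠ 0}.Finite := by
  refine (fin_lat hprop (isCompact_singleton (x := g)) hK).subset fun d hd => ⟨g, rfl, ?_⟩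
  by_contra h
  exact hd (hb _ h)

theorem Sm_bound {p : L →* G} {D N : Subgroup L} [N.Normal]
    (hprop : ∀ K : Set G, IsCompact K → {d : L | d ∈ D ∧ p d ∈ K}.Finite)
    (hcoc : ∃ C : Set G, IsCompact C ∧ ∀ g : G, ∃ d ∈ D, (p d)⁻¹ * g ∈ C)
    {K : Set G} (hK : IsCompact K) :
    ∃ c : ℝ, 0 ≤ c ∧ ∀ (b : G → ℝ) (f : L ⧸ N → ℝ) (a : ℝ), (∀ x ∉ K, b x = 0) →
      (∀ x, |b x| ≤ a) → (∀ q, |f q| ≤ 1) → ∀ g, |Sm p D N b f g| ≤ c * a := by
  obtain ⟨C, hC, hc⟩ := hcoc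
  have hfin := fin_lat hprop hC hK
  refine ⟨hfin.toFinset.card, by positivity, fun b f a hb ha hf g => ?_⟩
  obtain ⟨d, hd, hg⟩ := hc g
  have e : g = p d * ((p d)⁻¹ * g) := by simp
  rw [e, Sm_shift p D N b f hd]
  set x := (p d)⁻¹ * g
  unfold Sm
  rw [finsum_eq_sum_of_support_subset (s := hfin.toFinset)]
  · refine (Finset.abs_sum_le_sum_abs _ _).trans ?_
    rw [← nsmul_eq_mul, ← Finset.sum_const]
    refine Finset.sum_le_sum fun e _ => ?_
    rw [abs_mul]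
    have := mul_le_mul (ha ((p e)⁻¹ * x)) (hf ((d : L ⧸ N) * ((e : L) : L ⧸ N))) (abs_nonneg _)
      ((abs_nonneg _).trans (ha 1))
    simpa using this
  · intro e he
    simp only [Set.Finite.coe_toFinset, Set.mem_ofPred_eq]
    refine ⟨x, hg, ?_⟩
    by_contra h
    exact he (by simp [hb _ h])

theorem Sm_sub {p : L →* G} {D N : Subgroup L}
    (hprop : ∀ K : Set G, IsCompact K → {d : L | d ∈ D ∧ p d ∈ K}.Finite)
    {K : Set G} (hK : IsCompact K) {b : G → ℝ} (hb : ∀ x ∉ K, b x = 0) (f : L ⧸ N → ℝ)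
    (g u : G) :
    Sm p D N b f (g * u) - Sm p D N b f g = Sm p D N (fun x => b (x * u) - b x) f g := by
  unfold Sm
  rw [← finsum_sub_distrib]
  · refine finsum_congr fun d => ?_
    simp only [mul_assoc]
    ring
  · refine (fin_supp hprop hK hb (g * u)).subset fun d hd h => hd ?_
    simp [h]
  · refine (fin_supp hprop hK hb g).subset fun d hd h => hd ?_
    simp [h]

theorem unif_right [LocallyCompactSpace G] {b : G → ℝ} (hb : Continuous b)
    {K : Set G} (hK : IsCompact K) (hbK : ∀ x ∉ K, b x = 0) :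
    ∃ K' : Set G, IsCompact K' ∧ ∀ e : ℝ, 0 < e → ∀ᶠ u in 𝓝 (1 : G),
      (∀ x ∉ K', b (x * u) - b x = 0) ∧ ∀ x, |b (x * u) - b x| ≤ e := by
  obtain ⟨V, hV, hV1⟩ := exists_compact_mem_nhds (1 : G)
  refine ⟨K ∪ K * V⁻¹, hK.union (hK.mul hV.inv), fun e he => ?_⟩
  have h1 : ∀ᶠ u in 𝓝 (1 : G), ∀ x ∈ K ∪ K * V⁻¹, |b (x * u) - b x| ≤ e := by
    refine (hK.union (hK.mul hV.inv)).eventually_forall_of_forall_eventually
      (P := fun u x => |b (x * u) - b x| ≤ e) fun y _ => ?_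
    have hc : Continuous fun z : G × G => |b (z.2 * z.1) - b z.2| := by fun_prop
    have := (hc.tendsto (1, y)).eventually (gt_mem_nhds (a := e) (by simpa using he))
    exact this.mono fun z hz => hz.le
  filter_upwards [h1, hV1] with u hu huV
  have h2 : ∀ x ∉ K ∪ K * V⁻¹, b (x * u) - b x = 0 := by
    intro x hx
    rw [hbK x (fun h => hx (Or.inl h)), hbK (x * u) (fun h => hx (Or.inr
      ⟨x * u, h, u⁻¹, Set.inv_mem_inv.2 huV, by simp⟩)), sub_zero]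
  refine ⟨h2, fun x => ?_⟩
  by_cases hx : x ∈ K ∪ K * V⁻¹
  · exact hu x hx
  · rw [h2 x hx, abs_zero]
    exact he.le

theorem Sm_modulus [LocallyCompactSpace G] {p : L →* G} {D N : Subgroup L} [N.Normal]
    (hprop : ∀ K : Set G, IsCompact K → {d : L | d ∈ D ∧ p d ∈ K}.Finite)
    (hcoc : ∃ C : Set G, IsCompact C ∧ ∀ g : G, ∃ d ∈ D, (p d)⁻¹ * g ∈ C)
    {K : Set G} (hK : IsCompact K) {b : G → ℝ} (hb : Continuous b) (hbK : ∀ x ∉ K, b x = 0)
    {e : ℝ} (he : 0 < e) :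
    ∀ᶠ u in 𝓝 (1 : G), ∀ f : L ⧸ N → ℝ, (∀ q, |f q| ≤ 1) → ∀ g,
      |Sm p D N b f (g * u) - Sm p D N b f g| ≤ e := by
  obtain ⟨K', hK', h⟩ := unif_right hb hK hbK
  obtain ⟨c, hc, hcb⟩ := Sm_bound (N := N) hprop hcoc hK'
  filter_upwards [h (e / (c + 1)) (by positivity)] with u hu f hf g
  rw [Sm_sub hprop hK hbK]
  refine (hcb _ f _ hu.1 hu.2 hf g).trans ?_
  rw [mul_div_assoc', div_le_iff₀ (by positivity)]
  nlinarith

/-- the finitely supported function attached to a point -/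
noncomputable def Fs (p : L →* G) (D N : Subgroup L) (b : G → ℝ) (g : G) : (L ⧸ N) →₀ ℝ :=
  ∑ᶠ d : D, Finsupp.single ((d : L) : L ⧸ N) (b ((p d)⁻¹ * g))

theorem lc_Fs {p : L →* G} {D N : Subgroup L}
    (hprop : ∀ K : Set G, IsCompact K → {d : L | d ∈ D ∧ p d ∈ K}.Finite)
    {K : Set G} (hK : IsCompact K) {b : G → ℝ} (hb : ∀ x ∉ K, b x = 0) (f : L ⧸ N → ℝ) (g : G) :
    Finsupp.linearCombination ℝ f (Fs p D N b g) = Sm p D N b f g := by
  unfold Fs Sm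
  rw [map_finsum]
  · simp
  · refine (fin_supp hprop hK hb g).subset fun d hd h => hd ?_
    simp [h]

theorem finite_cover {p : L →* G} {N : Subgroup L}
    (hdense : ∀ g : G, g ∈ closure (p '' N)) {C K U : Set G} (hC : IsCompact C)
    (hK : IsCompact K) (hU : U ∈ 𝓝 (1 : G)) :
    ∃ T : Finset L, (∀ n ∈ T, n ∈ N) ∧ ∀ c ∈ C, ∀ y ∈ K, ∃ n ∈ T, (c * y)⁻¹ * (p n)⁻¹ * c ∈ U := by
  classical
  have hO : ∀ n : N, IsOpen {z : G × G | (z.1 * z.2)⁻¹ * (p n)⁻¹ * z.1 ∈ interior U} := by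
    intro n
    exact isOpen_interior.preimage (by fun_prop)
  obtain ⟨T, hT⟩ := (hC.prod hK).elim_finite_subcover _ hO (by
    rintro ⟨c, y⟩ -
    have ho : IsOpen {g : G | (c * y)⁻¹ * g⁻¹ * c ∈ interior U} :=
      isOpen_interior.preimage (by fun_prop)
    obtain ⟨g, hg, n, hn, rfl⟩ := mem_closure_iff.1 (hdense (c * (c * y)⁻¹)) _ ho (by
      simpa [mul_assoc] using mem_interior_iff_mem_nhds.2 hU)
    exact Set.mem_iUnion.2 ⟨⟨n, hn⟩, hg⟩)
  refine ⟨T.image (fun n : N => (n : L)), fun n hn => ?_, fun c hc y hy => ?_⟩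
  · obtain ⟨m, -, rfl⟩ := Finset.mem_image.1 hn
    exact m.2
  · have := hT (Set.mk_mem_prod hc hy)
    simp only [Set.mem_iUnion] at this
    obtain ⟨n, hn, h⟩ := this
    exact ⟨n, Finset.mem_image_of_mem _ hn, interior_subset h⟩

end P011NA
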